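import Vale.Agent.P022.H20.Val

/-!
# P022: continuous homomorphisms of inverse limits, letter-free
-/

open scoped TensorProduct

noncomputable section

namespace Vale.Agent.P022.St.Gen

theorem ring_nsmul {R T : Type} [Ring R] [Ring T] (φ : R →+* T) (n : ℕ) (y : R) :
    φ ((2 ^ n : ℕ) • y) = (2 ^ n : ℤ) • φ y := by
  rw [map_nsmul, ← natCast_zsmul]
  push_cast
  rfl

section

variable {A : ℕ → Type} [∀ k, Ring (A k)] (ρ : ∀ k k', k ≤ k' → A k' →+* A k)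

/-- the transition maps -/
def rZ (k k' : ℕ) (h : k ≤ k') : ℤ_[2] ⊗[ℤ] A k' →+* ℤ_[2] ⊗[ℤ] A k :=
  (Algebra.TensorProduct.map (AlgHom.id ℤ ℤ_[2]) (ρ k k' h).toIntAlgHom).toRingHom

/-- compatible families -/
def G2 : Subring (∀ k, ℤ_[2] ⊗[ℤ] A k) where
  carrier := {x | ∀ k k' (h : k ≤ k'), rZ ρ k k' h (x k') = x k}
  one_mem' k k' h := by
    rw [Pi.one_apply, map_one, Pi.one_apply]
  zero_mem' k k' h := by
    rw [Pi.zero_apply, map_zero, Pi.zero_apply]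
  neg_mem' {x} hx k k' h := by
    rw [Pi.neg_apply, map_neg, hx k k' h, Pi.neg_apply]
  mul_mem' {x y} hx hy k k' h := by
    rw [Pi.mul_apply, map_mul, hx k k' h, hy k k' h, Pi.mul_apply]
  add_mem' {x y} hx hy k k' h := by
    rw [Pi.add_apply, map_add, hx k k' h, hy k k' h, Pi.add_apply]

variable {S : Type} {V : ℕ → Type} [∀ i, Ring (V i)] (g : S → ∀ i, V i)
  (j : ∀ k, A k →+* HA g k)

/-- the map on `ℤ₂ ⊗ A` -/
def jZ (k : ℕ) : ℤ_[2] ⊗[ℤ] A k →+* ℤ_[2] ⊗[ℤ] HA g k :=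
  (Algebra.TensorProduct.map (AlgHom.id ℤ ℤ_[2]) (j k).toIntAlgHom).toRingHom

theorem jZ_tmul (k : ℕ) (z : ℤ_[2]) (t : A k) : jZ g j k (z ⊗ₜ t) = z ⊗ₜ j k t :=
  Algebra.TensorProduct.map_tmul (AlgHom.id ℤ ℤ_[2]) (j k).toIntAlgHom z t

theorem rZ_tmul (k k' : ℕ) (h : k ≤ k') (z : ℤ_[2]) (t : A k') :
    rZ ρ k k' h (z ⊗ₜ t) = z ⊗ₜ ρ k k' h t :=
  Algebra.TensorProduct.map_tmul (AlgHom.id ℤ ℤ_[2]) (ρ k k' h).toIntAlgHom z t

variable (hj : ∀ k k' (h : k ≤ k') t, j k (ρ k k' h t) = resH g h (j k' t))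

include hj in
theorem jZ_res {k k' : ℕ} (h : k ≤ k') (x : ℤ_[2] ⊗[ℤ] A k') :
    Algebra.TensorProduct.map (AlgHom.id ℤ_[2] ℤ_[2]) (resH g h) (jZ g j k' x) =
      jZ g j k (rZ ρ k k' h x) := by
  have hA : ∀ a b, Algebra.TensorProduct.map (AlgHom.id ℤ_[2] ℤ_[2]) (resH g h) (a + b) =
      Algebra.TensorProduct.map (AlgHom.id ℤ_[2] ℤ_[2]) (resH g h) a +
        Algebra.TensorProduct.map (AlgHom.id ℤ_[2] ℤ_[2]) (resH g h) b := fun a b =>
    (Algebra.TensorProduct.map (AlgHom.id ℤ_[2] ℤ_[2]) (resH g h)).toRingHom.map_add a b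
  have h0 : Algebra.TensorProduct.map (AlgHom.id ℤ_[2] ℤ_[2]) (resH g h) 0 = 0 :=
    (Algebra.TensorProduct.map (AlgHom.id ℤ_[2] ℤ_[2]) (resH g h)).toRingHom.map_zero
  induction x using TensorProduct.induction_on with
  | zero =>
    rw [(jZ g j k').map_zero, (rZ ρ k k' h).map_zero, (jZ g j k).map_zero]
    exact h0
  | tmul z t =>
    rw [rZ_tmul, jZ_tmul, jZ_tmul, hj]
    exact Algebra.TensorProduct.map_tmul (AlgHom.id ℤ_[2] ℤ_[2]) (resH g h) z (j k' t)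
  | add x y hx hy =>
    rw [(jZ g j k').map_add, (rZ ρ k k' h).map_add, (jZ g j k).map_add, ← hx, ← hy]
    exact hA _ _

/-- the map on the limits -/
def j2 : G2 ρ →+* T2 g where
  toFun x := ⟨fun k => jZ g j k (x.1 k), fun k k' h => by
    rw [jZ_res ρ g j hj, x.2 k k' h]⟩
  map_one' := Subtype.ext (funext fun k => map_one (jZ g j k))
  map_mul' x y := Subtype.ext (funext fun k => map_mul (jZ g j k) (x.1 k) (y.1 k))
  map_zero' := Subtype.ext (funext fun k => map_zero (jZ g j k))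
  map_add' x y := Subtype.ext (funext fun k => map_add (jZ g j k) (x.1 k) (y.1 k))

include hj in
theorem gen {E : Type} [NontriviallyNormedField E] [NormedAlgebra ℚ_[2] E] (c : ContHom g E) :
    ∃ lam : G2 ρ →+* E,
      (∀ (z : ℤ_[2]) (x : G2 ρ), (∀ k, x.1 k = z ⊗ₜ 1) → lam x = algebraMap ℚ_[2] E z) ∧
      (∀ x, ‖lam x‖ ≤ 1) ∧
      (∀ ε : ℝ, 0 < ε → ∃ k n : ℕ, ∀ x : G2 ρ,
        (∃ y : ℤ_[2] ⊗[ℤ] A k, x.1 k = (2 ^ n : ℕ) • y) → ‖lam x‖ < ε) ∧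
      ∀ (s : S) (t : ∀ k, A k), (∀ k, j k (t k) = gH g k s) →
        ∀ x : G2 ρ, (∀ k, x.1 k = 1 ⊗ₜ t k) → lam x = c.val s := by
  refine ⟨c.lam.comp (j2 ρ g j hj), fun z x hx => ?_, fun x => c.lam_le _, fun ε hε => ?_,
    fun s t ht x hx => ?_⟩
  · have e : j2 ρ g j hj x = algebraMap ℤ_[2] (T2 g) z := by
      refine Subtype.ext (funext fun k => ?_)
      change jZ g j k (x.1 k) = _
      rw [hx, jZ_tmul, map_one]
      rfl
    rw [RingHom.comp_apply, e]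
    exact c.lam_alg z
  · obtain ⟨k, n, h⟩ := c.lam_cont ε hε
    refine ⟨k, n, fun x hx => h _ ?_⟩
    obtain ⟨y, hy⟩ := hx
    refine ⟨jZ g j k y, ?_⟩
    exact (congrArg (jZ g j k) hy).trans (ring_nsmul (jZ g j k) n y)
  · have e : j2 ρ g j hj x = gT2 g s := by
      refine Subtype.ext (funext fun k => ?_)
      change jZ g j k (x.1 k) = _
      rw [hx, jZ_tmul, ht]
      rfl
    rw [RingHom.comp_apply, e]
    rfl

end

end Vale.Agent.P022.St.Gen
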