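import Vale.Agent.P022.H933.St.Def
import Vale.Agent.P022.H933.St.Gen
import Vale.Agent.P022.H20.Fin

/-!
# P022: the words of the proof imply the words of the statement
-/

open scoped TensorProduct MatrixGroups ModularForm
open UpperHalfPlane Matrix CongruenceSubgroup

noncomputable section

namespace Vale.Agent.P022.St

theorem dia_eq {N : ℕ} [NeZero N] (k : ℕ) (ℓ : Pr N) (f : M N k) :
    dia k ℓ f = (H783.dia k ℓ f : MF N k) := dia_eq0 k ℓ f (dia_ex k ℓ f)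

theorem hecke_eq {N : ℕ} [NeZero N] (k : ℕ) (ℓ : Pr N) (f : M N k) :
    hecke k ℓ f = (H783.Tl k ℓ f : MF N k) := hecke_eq0 k ℓ f (hecke_ex k ℓ f)

variable (N : ℕ) [NeZero N]

/-- the identity, from the operators of the statement to the operators of the proof -/
def iW (k : ℕ) : EndW N k →+* (∀ i : Fin k, Module.End ℂ (MF N (i + 1))) where
  toFun x := x
  map_one' := rfl
  map_mul' _ _ := rfl
  map_zero' := rfl
  map_add' _ _ := rfl

theorem iW_opT (k : ℕ) (ℓ : Pr N) : iW N k (opT N k ℓ) = gk (gHk N) k (Sum.inl ℓ) := by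
  funext i
  apply LinearMap.ext
  intro f
  exact hecke_eq (i + 1) ℓ f

theorem iW_opS (k : ℕ) (ℓ : Pr N) : iW N k (opS N k ℓ) = gk (gHk N) k (Sum.inr ℓ) := by
  funext i
  apply LinearMap.ext
  intro f
  exact congrArg (fun y : MF N (i + 1) => ((ℓ.1 : ℂ) ^ (i : ℕ)) • y) (dia_eq (i + 1) ℓ f)

theorem iW_mem (k : ℕ) (x : EndW N k) (hx : x ∈ TA N k) : iW N k x ∈ HA (gHk N) k := by
  have h1 : TA N k ≤ ((HA (gHk N) k).toSubring).comap (iW N k) := by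
    refine Subring.closure_le.2 ?_
    rintro _ (⟨ℓ, rfl⟩ | ⟨ℓ, rfl⟩)
    · change iW N k (opT N k ℓ) ∈ HA (gHk N) k
      rw [iW_opT]
      exact Algebra.subset_adjoin ⟨Sum.inl ℓ, rfl⟩
    · change iW N k (opS N k ℓ) ∈ HA (gHk N) k
      rw [iW_opS]
      exact Algebra.subset_adjoin ⟨Sum.inr ℓ, rfl⟩
  exact h1 hx

/-- the same on `T_{≤ k}` -/
def iR (k : ℕ) : TR N k →+* HA (gHk N) k where
  toFun x := ⟨iW N k (x : TA N k).1, iW_mem N k _ (x : TA N k).2⟩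
  map_one' := rfl
  map_mul' _ _ := rfl
  map_zero' := rfl
  map_add' _ _ := rfl

theorem iR_res (k k' : ℕ) (h : k ≤ k') (t : TR N k') :
    iR N k (resR N h t) = resH (gHk N) h (iR N k' t) := rfl

theorem exists_lam {E : Type} [NontriviallyNormedField E] [NormedAlgebra ℚ_[2] E]
    (c : ContHom (gHk N) E) : ∃ lam : T2 N →+* E, IsContHom N lam ∧
      (∀ ℓ, lam (elT N ℓ) = c.val (Sum.inl ℓ)) ∧ ∀ ℓ, lam (elS N ℓ) = c.val (Sum.inr ℓ) := by
  obtain ⟨lam, h1, h2, h3, h4⟩ := Gen.gen (A := TR N) (fun _ _ h => resR N h) (gHk N) (iR N)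
    (iR_res N) c
  refine ⟨(lam : T2s N →+* E), ⟨fun z => h1 z _ (fun k => rfl), h2, h3⟩,
    fun ℓ => ?_, fun ℓ => ?_⟩
  · exact h4 (Sum.inl ℓ) (fun k => (⟨opT N k ℓ, Subring.subset_closure (Or.inl ⟨ℓ, rfl⟩)⟩ : TA N k))
      (fun k => Subtype.ext (iW_opT N k ℓ)) _ (fun k => rfl)
  · exact h4 (Sum.inr ℓ) (fun k => (⟨opS N k ℓ, Subring.subset_closure (Or.inr ⟨ℓ, rfl⟩)⟩ : TA N k))
      (fun k => Subtype.ext (iW_opS N k ℓ)) _ (fun k => rfl)

theorem occurs {E : Type} [NontriviallyNormedField E] [NormedAlgebra ℚ_[2] E]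
    (r : GQ →* GL (Fin 2) E) (h : Vale.Agent.P022.Occurs E N r) : Occurs N r := by
  obtain ⟨h1, c, hc⟩ := h
  obtain ⟨lam, h2, h3, h4⟩ := exists_lam N c
  refine ⟨h1, lam, h2, fun ℓ g hg => ?_⟩
  obtain ⟨h5, h6⟩ := hc ℓ g hg
  exact ⟨(h3 ℓ).trans h5, (h4 ℓ).trans h6⟩

theorem q1Concl {E : Type} [NontriviallyNormedField E] [NormedAlgebra ℚ_[2] E]
    (r : GQ →* GL (Fin 2) E) (h : Vale.Agent.P022.Q1Concl E r) : Q1Concl r := by
  obtain ⟨N, hN, h1, h2, h3⟩ := h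
  exact ⟨N, hN, h1, h2, occurs N r h3⟩

end Vale.Agent.P022.St
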