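import Mathlib

/-!
P022: twists by Dirichlet characters (definition).
-/

open Matrix

noncomputable section

namespace Vale.Agent.P022.St

/-- `r` is the twist of `r₀` by the character `ψ` of `(ℤ/m)ˣ`, seen as a character of `G_ℚ`
through the action on the `m`-th roots of unity: `r(g) = ψ(a) r₀(g)` if `g ζ = ζ ^ a` for all
`ζ` with `ζ ^ m = 1` -/
def IsTwist {E : Type} [Field E] (m : ℕ) (ψ : (ZMod m)ˣ →* Eˣ)
    (r₀ r : (AlgebraicClosure ℚ ≃ₐ[ℚ] AlgebraicClosure ℚ) →* GL (Fin 2) E) : Prop :=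
  ∀ (g : AlgebraicClosure ℚ ≃ₐ[ℚ] AlgebraicClosure ℚ) (a : (ZMod m)ˣ),
    (∀ ζ : AlgebraicClosure ℚ, ζ ^ m = 1 → g ζ = ζ ^ (a : ZMod m).val) →
      (r g : Matrix (Fin 2) (Fin 2) E) = ((ψ a : Eˣ) : E) • (r₀ g : Matrix (Fin 2) (Fin 2) E)

end Vale.Agent.P022.St
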