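import Vale.Agent.P022.H933.St.Pre
import Vale.Agent.P022.H565.StG

/-!
P022: the 2-adic Hecke algebra `T₂(N)` and the conclusion of Q1.
-/

open scoped TensorProduct MatrixGroups ModularForm
open UpperHalfPlane Matrix CongruenceSubgroup

noncomputable section

namespace Vale.Agent.P022.St

/-- `⟨ℓ⟩` on `M_k(Γ₁(N))` -/
def diaM {N : ℕ} [NeZero N] (k : ℕ) (ℓ : Pr N) (f : M N k) : M N k :=
  M.ofFun (diaFun k ℓ f.fn) (by
    have h := dia_ex k ℓ f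
    exact h)

/-- `T_ℓ` on `M_k(Γ₁(N))` -/
def heckeM {N : ℕ} [NeZero N] (k : ℕ) (ℓ : Pr N) (f : M N k) : M N k :=
  M.ofFun (heckeFun k ℓ f.fn) (by
    have h := hecke_ex k ℓ f
    exact h)

/-- the diamond operator `⟨ℓ⟩` as an endomorphism -/
def dia {N : ℕ} [NeZero N] (k : ℕ) (ℓ : Pr N) : Module.End ℂ (M N k) where
  toFun := diaM k ℓ
  map_add' f g := by
    rw [diaM, diaM, diaM, dia_eq0, dia_eq0, dia_eq0]
    exact map_add (H783.dia (N := N) k ℓ) f g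
  map_smul' c f := by
    rw [diaM, diaM, dia_eq0, dia_eq0]
    exact map_smul (H783.dia (N := N) k ℓ) c f

/-- the Hecke operator `T_ℓ` as an endomorphism -/
def hecke {N : ℕ} [NeZero N] (k : ℕ) (ℓ : Pr N) : Module.End ℂ (M N k) where
  toFun := heckeM k ℓ
  map_add' f g := by
    rw [heckeM, heckeM, heckeM, hecke_eq0, hecke_eq0, hecke_eq0]
    exact map_add (H783.Tl (N := N) k ℓ) f g
  map_smul' c f := by
    rw [heckeM, heckeM, hecke_eq0, hecke_eq0]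
    exact map_smul (H783.Tl (N := N) k ℓ) c f

/-- the endomorphisms of `M_1(Γ₁(N)) ⊕ ⋯ ⊕ M_k(Γ₁(N))` preserving each summand -/
def EndW (N k : ℕ) : Type := ∀ i : Fin k, Module.End ℂ (M N (i + 1))

instance ringW (N k : ℕ) : Ring (EndW N k) :=
  (inferInstance : Ring (∀ i : Fin k, Module.End ℂ (M N (i + 1))))

/-- `T_ℓ` on `M_1 ⊕ ⋯ ⊕ M_k` -/
def opT (N : ℕ) [NeZero N] (k : ℕ) (ℓ : Pr N) : EndW N k := fun i => hecke (i + 1) ℓ

/-- `ℓ S_ℓ` on `M_1 ⊕ ⋯ ⊕ M_k`: in weight `w = i + 1` it is `ℓ · ℓ^(w - 2) ⟨ℓ⟩ = ℓ^i ⟨ℓ⟩` -/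
def opS (N : ℕ) [NeZero N] (k : ℕ) (ℓ : Pr N) : EndW N k :=
  fun i => ((ℓ.1 : ℂ) ^ (i : ℕ)) • dia (i + 1) ℓ

/-- `T_{≤ k}(N)`: the ring generated by the `T_ℓ` and the `ℓ S_ℓ` -/
def TA (N : ℕ) [NeZero N] (k : ℕ) : Subring (EndW N k) :=
  Subring.closure (Set.range (opT N k) ∪ Set.range (opS N k))

/-- `T_{≤ k}(N)` as a type -/
def TR (N : ℕ) [NeZero N] (k : ℕ) : Type := TA N k

instance ringR (N : ℕ) [NeZero N] (k : ℕ) : Ring (TR N k) := (inferInstance : Ring (TA N k))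

/-- restriction of operators to fewer weights -/
def resW (N : ℕ) {k k' : ℕ} (h : k ≤ k') : EndW N k' →+* EndW N k :=
  RingHom.pi fun i : Fin k =>
    Pi.evalRingHom (fun i : Fin k' => Module.End ℂ (M N (i + 1))) (Fin.castLE h i)

theorem resW_mem (N : ℕ) [NeZero N] {k k' : ℕ} (h : k ≤ k') (x : EndW N k') (hx : x ∈ TA N k') :
    resW N h x ∈ TA N k := by
  have h1 : TA N k' ≤ (TA N k).comap (resW N h) := by
    refine Subring.closure_le.2 ?_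
    rintro _ (⟨ℓ, rfl⟩ | ⟨ℓ, rfl⟩)
    · exact Subring.subset_closure (Or.inl ⟨ℓ, rfl⟩)
    · exact Subring.subset_closure (Or.inr ⟨ℓ, rfl⟩)
  exact h1 hx

/-- the restriction map `T_{≤ k'}(N) → T_{≤ k}(N)` -/
def resR (N : ℕ) [NeZero N] {k k' : ℕ} (h : k ≤ k') : TR N k' →+* TR N k :=
  (resW N h).restrict (TA N k') (TA N k) (by
    have e := resW_mem N h
    exact e)

/-- `ℤ₂ ⊗ T_{≤ k}(N)` -/
def TZ (N : ℕ) [NeZero N] (k : ℕ) : Type := ℤ_[2] ⊗[ℤ] TR N k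

instance ringZ (N : ℕ) [NeZero N] (k : ℕ) : Ring (TZ N k) :=
  (inferInstance : Ring (ℤ_[2] ⊗[ℤ] TR N k))

/-- the transition map `ℤ₂ ⊗ T_{≤ k'}(N) → ℤ₂ ⊗ T_{≤ k}(N)` -/
def resZ (N : ℕ) [NeZero N] {k k' : ℕ} (h : k ≤ k') : TZ N k' →+* TZ N k :=
  (Algebra.TensorProduct.map (AlgHom.id ℤ ℤ_[2]) (resR N h).toIntAlgHom).toRingHom

/-- `T₂(N)`, the inverse limit of the `ℤ₂ ⊗ T_{≤ k}(N)`, as a subring of the product -/
def T2s (N : ℕ) [NeZero N] : Subring (∀ k, TZ N k) where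
  carrier := {x | ∀ k k' (h : k ≤ k'), resZ N h (x k') = x k}
  one_mem' k k' h := by
    rw [Pi.one_apply, map_one, Pi.one_apply]
  zero_mem' k k' h := by
    rw [Pi.zero_apply, map_zero, Pi.zero_apply]
  neg_mem' {x} hx k k' h := by
    rw [Pi.neg_apply, map_neg, hx k k' h, Pi.neg_apply]
  mul_mem' {x y} hx hy k k' h := by
    rw [Pi.mul_apply, map_mul, hx k k' h, hy k k' h, Pi.mul_apply]
  add_mem' {x y} hx hy k k' h := by
    rw [Pi.add_apply, map_add, hx k k' h, hy k k' h, Pi.add_apply]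

/-- `T₂(N)` as a type -/
def T2 (N : ℕ) [NeZero N] : Type := T2s N

instance ring2 (N : ℕ) [NeZero N] : Ring (T2 N) := (inferInstance : Ring (T2s N))

/-- the component of `x ∈ T₂(N)` in `ℤ₂ ⊗ T_{≤ k}(N)` -/
def T2.comp {N : ℕ} [NeZero N] (x : T2 N) (k : ℕ) : TZ N k := (x : T2s N).1 k

/-- the element `z ⊗ t` -/
def tz (N : ℕ) [NeZero N] (k : ℕ) (z : ℤ_[2]) (t : TR N k) : TZ N k :=
  (z ⊗ₜ t : ℤ_[2] ⊗[ℤ] TR N k)

theorem resZ_tz (N : ℕ) [NeZero N] {k k' : ℕ} (h : k ≤ k') (z : ℤ_[2]) (t : TR N k') :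
    resZ N h (tz N k' z t) = tz N k z (resR N h t) :=
  Algebra.TensorProduct.map_tmul (AlgHom.id ℤ ℤ_[2]) (resR N h).toIntAlgHom z t

/-- the compatible system of the `z ⊗ t k` as an element of `T₂(N)` -/
def T2.mk {N : ℕ} [NeZero N] (z : ℤ_[2]) (t : ∀ k, TR N k)
    (ht : ∀ k k' (h : k ≤ k'), resR N h (t k') = t k) : T2 N :=
  (⟨fun k => tz N k z (t k), fun k k' h => by
    have e := resZ_tz N h z (t k')
    rw [ht] at e
    exact e⟩ : T2s N)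

/-- the element `T_ℓ` of `T₂(N)` -/
def elT (N : ℕ) [NeZero N] (ℓ : Pr N) : T2 N :=
  T2.mk 1 (fun k => (⟨opT N k ℓ, by
    have h := Subring.subset_closure (s := Set.range (opT N k) ∪ Set.range (opS N k))
      (Or.inl ⟨ℓ, rfl⟩)
    exact h⟩ : TA N k)) (by
    intro k k' h
    rfl)

/-- the element `ℓ S_ℓ` of `T₂(N)` -/
def elS (N : ℕ) [NeZero N] (ℓ : Pr N) : T2 N :=
  T2.mk 1 (fun k => (⟨opS N k ℓ, by
    have h := Subring.subset_closure (s := Set.range (opT N k) ∪ Set.range (opS N k))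
      (Or.inr ⟨ℓ, rfl⟩)
    exact h⟩ : TA N k)) (by
    intro k k' h
    rfl)

/-- the element `z ∈ ℤ₂` of `T₂(N)` -/
def elZ (N : ℕ) [NeZero N] (z : ℤ_[2]) : T2 N :=
  T2.mk z (fun k => (1 : TR N k)) (by
    intro k k' h
    rw [map_one])

/-- `lam` is a continuous `ℤ₂`-algebra homomorphism from `T₂(N)` to the ring of integers of `E`:
the sets `{x | x.comp k ∈ 2^n (ℤ₂ ⊗ T_{≤ k})}` are the basic neighbourhoods of `0` -/
def IsContHom (N : ℕ) [NeZero N] {E : Type} [NontriviallyNormedField E] [NormedAlgebra ℚ_[2] E]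
    (lam : T2 N →+* E) : Prop :=
  (∀ z : ℤ_[2], lam (elZ N z) = algebraMap ℚ_[2] E z) ∧ (∀ x, ‖lam x‖ ≤ 1) ∧
  ∀ ε : ℝ, 0 < ε → ∃ k n : ℕ, ∀ x : T2 N, (∃ y : TZ N k, x.comp k = (2 ^ n : ℕ) • y) →
    ‖lam x‖ < ε

/-- `r` occurs at level `N` -/
def Occurs (N : ℕ) [NeZero N] {E : Type} [NontriviallyNormedField E] [NormedAlgebra ℚ_[2] E]
    (r : (AlgebraicClosure ℚ ≃ₐ[ℚ] AlgebraicClosure ℚ) →* GL (Fin 2) E) : Prop :=
  (∀ ℓ : Pr N, UnrAt r ℓ.1) ∧ ∃ lam : T2 N →+* E, IsContHom N lam ∧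
    ∀ (ℓ : Pr N) (g : AlgebraicClosure ℚ ≃ₐ[ℚ] AlgebraicClosure ℚ), IsFrob ℓ.1 g →
      lam (elT N ℓ) = (r g : Matrix (Fin 2) (Fin 2) E).trace ∧
      lam (elS N ℓ) = (r g : Matrix (Fin 2) (Fin 2) E).det

/-- the conclusion of Q1: `r` occurs at some odd level `N` whose prime divisors are all primes at
which `r` ramifies -/
def Q1Concl {E : Type} [NontriviallyNormedField E] [NormedAlgebra ℚ_[2] E]
    (r : (AlgebraicClosure ℚ ≃ₐ[ℚ] AlgebraicClosure ℚ) →* GL (Fin 2) E) : Prop :=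
  ∃ (N : ℕ) (_ : NeZero N), Odd N ∧ (∀ p : ℕ, p.Prime → p ∣ N → ¬ UnrAt r p) ∧ Occurs N r

end Vale.Agent.P022.St
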