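import Mathlib

/-!
P022: the spaces `M_k(Γ₁(N))` and the matrices of the Hecke operators.
-/

open scoped MatrixGroups ModularForm
open UpperHalfPlane Matrix CongruenceSubgroup

noncomputable section

namespace Vale.Agent.P022.St

/-- the space `M_k(Γ₁(N))` of modular forms of weight `k` -/
def M (N k : ℕ) : Type :=
  ModularForm ((Gamma1 N : Subgroup SL(2, ℤ)) : Subgroup (GL (Fin 2) ℝ)) (k : ℤ)

instance grpM (N k : ℕ) : AddCommGroup (M N k) :=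
  (inferInstance : AddCommGroup
    (ModularForm ((Gamma1 N : Subgroup SL(2, ℤ)) : Subgroup (GL (Fin 2) ℝ)) (k : ℤ)))

instance modM (N k : ℕ) : Module ℂ (M N k) :=
  (inferInstance : Module ℂ
    (ModularForm ((Gamma1 N : Subgroup SL(2, ℤ)) : Subgroup (GL (Fin 2) ℝ)) (k : ℤ)))

/-- the function on the upper half plane -/
def M.fn {N k : ℕ} (f : M N k) : ℍ → ℂ :=
  DFunLike.coe
    (F := ModularForm ((Gamma1 N : Subgroup SL(2, ℤ)) : Subgroup (GL (Fin 2) ℝ)) (k : ℤ)) f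

/-- a function which is a modular form, as an element of `M_k(Γ₁(N))` -/
def M.ofFun {N k : ℕ} (F : ℍ → ℂ) (h : ∃ g : M N k, g.fn = F) : M N k :=
  show ModularForm ((Gamma1 N : Subgroup SL(2, ℤ)) : Subgroup (GL (Fin 2) ℝ)) (k : ℤ) from
    { toFun := F
      slash_action_eq' := by
        obtain ⟨g, rfl⟩ := h
        exact g.slash_action_eq'
      holo' := by
        obtain ⟨g, rfl⟩ := h
        exact g.holo'
      bdd_at_cusps' := by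
        obtain ⟨g, rfl⟩ := h
        exact g.bdd_at_cusps' }

/-- the primes `ℓ ∤ 2N` -/
abbrev Pr (N : ℕ) : Type := {ℓ : ℕ // ℓ.Prime ∧ ¬ ℓ ∣ 2 * N}

/-- a matrix `[A, B; N, ℓ]` of determinant `1` -/
def gam {N : ℕ} (ℓ : Pr N) : SL(2, ℤ) :=
  ⟨!![Nat.gcdA ℓ.1 N, -Nat.gcdB ℓ.1 N; (N : ℤ), (ℓ.1 : ℤ)], by
    rw [Matrix.det_fin_two_of]
    have h : Nat.Coprime ℓ.1 N :=
      (Nat.Prime.coprime_iff_not_dvd ℓ.2.1).2 fun h => ℓ.2.2 (h.mul_left 2)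
    have h1 := Nat.gcd_eq_gcd_ab ℓ.1 N
    rw [Nat.Coprime] at h
    rw [h] at h1
    push_cast at h1
    linear_combination -h1⟩

/-- `[1, j; 0, ℓ]` -/
def up {N : ℕ} (ℓ : Pr N) (j : ℕ) : GL (Fin 2) ℝ :=
  GeneralLinearGroup.mkOfDetNeZero !![1, (j : ℝ); 0, (ℓ.1 : ℝ)] (by
    have := ℓ.2.1.ne_zero
    simpa [Matrix.det_fin_two] using this)

/-- `[ℓ, 0; 0, 1]` -/
def dn {N : ℕ} (ℓ : Pr N) : GL (Fin 2) ℝ :=
  GeneralLinearGroup.mkOfDetNeZero !![(ℓ.1 : ℝ), 0; 0, 1] (by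
    have := ℓ.2.1.ne_zero
    simpa [Matrix.det_fin_two] using this)

/-- `⟨ℓ⟩ F = F ∣ [A, B; N, ℓ]` in weight `k` -/
def diaFun {N : ℕ} (k : ℕ) (ℓ : Pr N) (F : ℍ → ℂ) : ℍ → ℂ := F ∣[(k : ℤ)] gam ℓ

/-- `T_ℓ F = ∑_(j < ℓ) F ∣ [1, j; 0, ℓ] + (⟨ℓ⟩ F) ∣ [ℓ, 0; 0, 1]` in weight `k` -/
def heckeFun {N : ℕ} (k : ℕ) (ℓ : Pr N) (F : ℍ → ℂ) : ℍ → ℂ :=
  (∑ j : Fin ℓ.1, F ∣[(k : ℤ)] up ℓ j) + (diaFun k ℓ F) ∣[(k : ℤ)] dn ℓ

end Vale.Agent.P022.St
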