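import Vale.Agent.P022.H933.St.Def0
import Vale.Agent.P022.H783.HK

/-!
P022: the Hecke operators of the statement layer are those of `H783.HK`.
-/

open scoped MatrixGroups ModularForm
open UpperHalfPlane Matrix CongruenceSubgroup

noncomputable section

namespace Vale.Agent.P022.St

theorem up_eq {N : ℕ} (ℓ : Pr N) (j : ℕ) : up ℓ j = Vale.Agent.P022.up ℓ.1 ℓ.2.1.ne_zero j := by
  apply Units.ext
  rw [Vale.Agent.P022.up, H783.tri_coe]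
  ext a b
  fin_cases a <;> fin_cases b <;> simp [up, GeneralLinearGroup.mkOfDetNeZero]

theorem dn_eq {N : ℕ} (ℓ : Pr N) : dn ℓ = Vale.Agent.P022.dn ℓ.1 ℓ.2.1.ne_zero := by
  apply Units.ext
  rw [Vale.Agent.P022.dn, H783.tri_coe]
  ext a b
  fin_cases a <;> fin_cases b <;> simp [dn, GeneralLinearGroup.mkOfDetNeZero]

theorem dia_fn {N : ℕ} [NeZero N] (k : ℕ) (ℓ : Pr N) (f : MF N k) :
    (H783.dia k ℓ f : ℍ → ℂ) = (f : ℍ → ℂ) ∣[(k : ℤ)] gam ℓ := H783.dia_coe k ℓ f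

theorem tl_fn {N : ℕ} [NeZero N] (k : ℕ) (ℓ : Pr N) (f : MF N k) :
    (H783.Tl k ℓ f : ℍ → ℂ) = (∑ j : Fin ℓ.1, (f : ℍ → ℂ) ∣[(k : ℤ)] up ℓ j) +
        ((f : ℍ → ℂ) ∣[(k : ℤ)] gam ℓ) ∣[(k : ℤ)] dn ℓ := by
  rw [H783.Tl_coe, tFun, dn_eq]
  congr 1
  refine Finset.sum_congr rfl fun j _ => ?_
  rw [up_eq]

theorem ofFun_eq {N k : ℕ} (F : ℍ → ℂ) (h : ∃ g : M N k, g.fn = F) (g : M N k) (hg : g.fn = F) :
    M.ofFun F h = g :=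
  DFunLike.coe_injective (F := ModularForm ((Gamma1 N : Subgroup SL(2, ℤ)) :
    Subgroup (GL (Fin 2) ℝ)) (k : ℤ)) hg.symm

theorem dia_ex {N : ℕ} [NeZero N] (k : ℕ) (ℓ : Pr N) (f : M N k) :
    ∃ g : M N k, g.fn = diaFun k ℓ f.fn :=
  ⟨H783.dia k ℓ f, dia_fn k ℓ f⟩

theorem hecke_ex {N : ℕ} [NeZero N] (k : ℕ) (ℓ : Pr N) (f : M N k) :
    ∃ g : M N k, g.fn = heckeFun k ℓ f.fn :=
  ⟨H783.Tl k ℓ f, tl_fn k ℓ f⟩

theorem dia_eq0 {N : ℕ} [NeZero N] (k : ℕ) (ℓ : Pr N) (f : M N k)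
    (h : ∃ g : M N k, g.fn = diaFun k ℓ f.fn) :
    M.ofFun (diaFun k ℓ f.fn) h = (H783.dia k ℓ f : MF N k) :=
  ofFun_eq _ h (H783.dia k ℓ f : MF N k) (dia_fn k ℓ f)

theorem hecke_eq0 {N : ℕ} [NeZero N] (k : ℕ) (ℓ : Pr N) (f : M N k)
    (h : ∃ g : M N k, g.fn = heckeFun k ℓ f.fn) :
    M.ofFun (heckeFun k ℓ f.fn) h = (H783.Tl k ℓ f : MF N k) :=
  ofFun_eq _ h (H783.Tl k ℓ f : MF N k) (tl_fn k ℓ f)

end Vale.Agent.P022.St
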